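import Vale.Agent.P002Z.Fin

/-!
# Potential density of integral points on the character varieties of all smooth complex curves,
with the topological fundamental group and actual meridians
-/

namespace Vale.Agent.Results.P002.ACurves

open Matrix Vale.Agent.P002R.Orb Vale.Agent.P002.H326J Vale.Agent.P002Z
open scoped Manifold

/-- `M` is any compact connected Riemann surface (the complex points of a smooth projective
connected curve), `D ⊆ M` any finite set (the boundary, possibly empty), `X = M ∖ D`, `x₀ ∈ X`, and
`π_1(X, x₀)` is the topological fundamental group. (1) It is finitely presented. (2) Meridians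
exist. (3) For every presentation `θ : ⟨ι | R⟩ ≃ π_1(X, x₀)` with finitely many generators, every
rank `r`, every finite family of words `w j` which represent meridians around points of `D` (one for
each point of `D`, or only some, or none) and all quasi-unipotent `C j ∈ SL_r(ℂ)`: there is one number
field `L ⊆ ℂ` such that the `𝓞 L`-integral points of `M_r(X)` in `Y` are Zariski dense in `Y`, where
`Y = YW R w C` is the set of the semisimple `ρ` with `ρ (w j)` in the conjugacy class of `C j` for
all `j`; and even the representations into `SL_r(𝓞 L)` in `Y` are Zariski dense in `Y` in the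
representation variety. -/
theorem result {M : Type} [TopologicalSpace M] [T2Space M] [CompactSpace M] [ConnectedSpace M]
    [ChartedSpace ℂ M] [IsManifold 𝓘(ℂ) 1 M] (D : Set M) (hD : D.Finite) (x₀ : ↥Dᶜ) :
    Group.IsFinitelyPresented (FundamentalGroup ↥Dᶜ x₀) ∧
    (∀ p ∈ D, ∃ γ, IsMeridian D x₀ p γ) ∧
    ∀ (ι : Type) [Finite ι] (R : Set (FreeGroup ι))
      (θ : PresentedGroup R ≃* FundamentalGroup ↥Dᶜ x₀)
      (r s : ℕ) (w : Fin s → FreeGroup ι) (C : Fin s → SpecialLinearGroup (Fin r) ℂ),
      (∀ j, ∃ p ∈ D, IsMeridian D x₀ p (θ (PresentedGroup.mk R (w j)))) →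
      (∀ j, IsQuasiUnipotent (C j)) →
      ∃ L : IntermediateField ℚ ℂ, FiniteDimensional ℚ L ∧
        IsDense R L (YW R w C) ∧ IsDenseRep L (YW R w C) := by
  obtain ⟨h1, h2, h3⟩ := curves hD x₀
  refine ⟨h1, fun p _ => h2 p, fun ι _ R θ r s w C hw hC => ?_⟩
  obtain ⟨L, hL, h⟩ := h3 ι R θ r s w C hw hC
  exact ⟨L, hL, h.isDense, h⟩

end Vale.Agent.Results.P002.ACurves
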